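import Mathlib

namespace Vale.Agent.Results.P015.Corridor


/-- If a rational prime `p` divides the norm of a Gaussian prime `z`, then the norm is at most `p^2`. -/
lemma norm_le_sq_of_prime {z : GaussianInt} (hz : Prime z) {p : ℕ} (hp : p.Prime)
    (hdvd : (p : ℤ) ∣ z.norm) : z.norm ≤ (p : ℤ) ^ 2 := by
  have hz0 : z ≠ 0 := hz.ne_zero
  obtain ⟨n, hn⟩ : ∃ n : ℕ, (n : ℤ) = z.norm := ⟨z.norm.natAbs, Int.natAbs_of_nonneg (GaussianInt.norm_nonneg z)⟩
  have hn0 : n ≠ 0 := by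
    rintro rfl
    have h0 : z.norm = 0 := by simpa using hn.symm
    exact hz0 ((Zsqrtd.norm_eq_zero_iff (by norm_num) z).1 h0)
  have hzn : z ∣ ((n : ℕ) : GaussianInt) := by
    refine ⟨star z, ?_⟩
    rw [← Zsqrtd.norm_eq_mul_conj, ← hn]
    simp
  obtain ⟨q, hq, hzq⟩ : ∃ q : ℕ, q.Prime ∧ z ∣ (q : GaussianInt) := by
    rw [← Nat.prod_primeFactorsList hn0, Nat.cast_list_prod, hz.dvd_prod_iff] at hzn
    obtain ⟨a, ha, hza⟩ := hzn
    obtain ⟨q, hq, rfl⟩ := List.mem_map.1 ha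
    exact ⟨q, Nat.prime_of_mem_primeFactorsList hq, hza⟩
  have hnq : n ∣ q ^ 2 := by
    obtain ⟨w, hw⟩ := hzq
    have h1 : ((q : GaussianInt)).norm = z.norm * w.norm := by rw [hw, Zsqrtd.norm_mul]
    rw [Zsqrtd.norm_natCast, ← hn] at h1
    have : (n : ℤ) ∣ ((q ^ 2 : ℕ) : ℤ) := ⟨w.norm, by push_cast; rw [← h1]; ring⟩
    exact_mod_cast this
  obtain ⟨k, hk, hnk⟩ := (Nat.dvd_prime_pow hq).1 hnq
  have hpn : p ∣ n := by
    rw [← hn] at hdvd
    exact_mod_cast hdvd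
  have hpq : p = q := by
    rw [hnk] at hpn
    exact (Nat.prime_dvd_prime_iff_eq hp hq).1 (hp.dvd_of_dvd_pow hpn)
  rw [← hn, hnk, ← hpq]
  have : p ^ k ≤ p ^ 2 := Nat.pow_le_pow_right hp.pos hk
  exact_mod_cast this


/-- choice of a square root of `-1` adapted to a coprime pair -/
lemma exists_root (p : ℕ) [Fact p.Prime] (hsq : IsSquare (-1 : ZMod p)) (hp2' : p ≠ 2) (a : ℤ) (b : ℕ)
    (hab : a.natAbs.Coprime b) :
    ∃ r : ZMod p, r ^ 2 = -1 ∧ (b : ZMod p) - r * (a : ZMod p) ≠ 0 := by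
  have hp : p.Prime := Fact.out
  obtain ⟨s, hs⟩ := hsq
  have hs2 : s ^ 2 = -1 := by rw [sq]; exact hs.symm
  by_cases h1 : (b : ZMod p) - s * (a : ZMod p) = 0
  · refine ⟨-s, by rw [neg_sq]; exact hs2, ?_⟩
    intro h2
    have hp2 : (2 : ZMod p) ≠ 0 := by
      intro h
      have h' : ((2 : ℕ) : ZMod p) = 0 := by exact_mod_cast h
      rw [ZMod.natCast_eq_zero_iff] at h'
      exact hp2' ((Nat.prime_dvd_prime_iff_eq hp Nat.prime_two).1 h')
    have hb : (b : ZMod p) = 0 := by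
      have : (2 : ZMod p) * b = 0 := by linear_combination h1 + h2
      rcases mul_eq_zero.1 this with h | h
      · exact absurd h hp2
      · exact h
    have hs0 : s ≠ 0 := by
      rintro rfl
      have h01 : (0 : ZMod p) = -1 := by simpa using hs2
      have : (1 : ZMod p) = 0 := by linear_combination h01
      exact one_ne_zero this
    have ha : (a : ZMod p) = 0 := by
      have : s * (a : ZMod p) = 0 := by linear_combination hb - h1
      rcases mul_eq_zero.1 this with h | h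
      · exact absurd h hs0
      · exact h
    rw [ZMod.natCast_eq_zero_iff] at hb
    rw [ZMod.intCast_zmod_eq_zero_iff_dvd] at ha
    have ha' : p ∣ a.natAbs := Int.natCast_dvd.1 ha
    have := Nat.dvd_gcd ha' hb
    rw [hab] at this
    exact hp.one_lt.ne' (Nat.dvd_one.1 this)
  · exact ⟨s, hs2, h1⟩

lemma isSquare_neg_one_of_dvd (q t : ℕ) (h : q ∣ t * t + 1) : IsSquare (-1 : ZMod q) := by
  refine ⟨(t : ZMod q), ?_⟩
  rw [← ZMod.natCast_eq_zero_iff] at h
  push_cast at h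
  exact (eq_neg_of_add_eq_zero_left h).symm

/-- A supply of `K` distinct odd primes modulo which `-1` is a square, with controlled product:
the least prime factors of the Fermat numbers `F_1, ..., F_K`. -/
lemma supply (K : ℕ) : ∃ pr : Fin K → ℕ, Function.Injective pr ∧
    (∀ i, (pr i).Prime) ∧ (∀ i, pr i ≠ 2) ∧ (∀ i, IsSquare (-1 : ZMod (pr i))) ∧
    ∏ i, pr i ≤ 2 ^ 2 ^ (K + 1) := by
  refine ⟨fun i => (Nat.fermatNumber (i + 1)).minFac, ?_, ?_, ?_, ?_, ?_⟩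
  · intro i j hij
    by_contra hne
    have hne' : (i : ℕ) + 1 ≠ (j : ℕ) + 1 := fun h => hne (Fin.ext (by omega))
    have hc := Nat.coprime_fermatNumber_fermatNumber hne'
    have h1 : (Nat.fermatNumber (i + 1)).minFac ∣ Nat.fermatNumber (i + 1) := Nat.minFac_dvd _
    have h2 : (Nat.fermatNumber (i + 1)).minFac ∣ Nat.fermatNumber (j + 1) := by
      have : (Nat.fermatNumber (i + 1)).minFac = (Nat.fermatNumber (j + 1)).minFac := hij
      rw [this]; exact Nat.minFac_dvd _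
    have h3 := Nat.dvd_gcd h1 h2
    rw [hc] at h3
    exact (Nat.minFac_prime (Nat.fermatNumber_ne_one _)).one_lt.ne' (Nat.dvd_one.1 h3)
  · intro i
    exact Nat.minFac_prime (Nat.fermatNumber_ne_one _)
  · intro i h
    have h' : (Nat.fermatNumber (i + 1)).minFac = 2 := h
    have h1 : (Nat.fermatNumber (i + 1)).minFac ∣ Nat.fermatNumber (i + 1) := Nat.minFac_dvd _
    rw [h'] at h1
    have := Nat.odd_fermatNumber (i + 1)
    rw [Nat.odd_iff] at this
    omega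
  · intro i
    have h1 : (Nat.fermatNumber (i + 1)).minFac ∣ Nat.fermatNumber (i + 1) := Nat.minFac_dvd _
    have h2 : Nat.fermatNumber ((i : ℕ) + 1) = 2 ^ 2 ^ (i : ℕ) * 2 ^ 2 ^ (i : ℕ) + 1 := by
      unfold Nat.fermatNumber
      rw [← pow_add, pow_succ]
      ring_nf
    exact isSquare_neg_one_of_dvd _ (2 ^ 2 ^ (i : ℕ)) (h1.trans (dvd_of_eq h2))
  · calc ∏ i : Fin K, (Nat.fermatNumber (i + 1)).minFac
        ≤ ∏ i : Fin K, Nat.fermatNumber (i + 1) :=
          Finset.prod_le_prod' (fun i _ => Nat.minFac_le (by have := Nat.three_le_fermatNumber ((i : ℕ) + 1); omega))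
      _ = ∏ k ∈ Finset.range K, Nat.fermatNumber (k + 1) := by
          rw [Fin.prod_univ_eq_prod_range (fun k => Nat.fermatNumber (k + 1)) K]
      _ ≤ ∏ k ∈ Finset.range (K + 1), Nat.fermatNumber k := by
          rw [Finset.prod_range_succ']
          simp only [Nat.fermatNumber_zero]
          omega
      _ = Nat.fermatNumber (K + 1) - 2 := Nat.prod_fermatNumber _
      _ ≤ 2 ^ 2 ^ (K + 1) := by
          unfold Nat.fermatNumber
          generalize 2 ^ 2 ^ (K + 1) = t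
          omega

lemma window (α β : ℝ) (D W : ℕ) (x' : ℤ) :
    ∃ x0 : ℤ, x' ≤ x0 ∧ x0 ≤ x' + ((2 ^ 2 ^ ((D + 1) * (2 * W + 3) + 1) : ℕ) : ℤ) ^ 2 ∧
      ∀ x y : ℤ, x0 ≤ x → x ≤ x0 + D → |(y : ℝ) - α * x - β| ≤ W →
        ∃ p : ℕ, p.Prime ∧ p ≤ 2 ^ 2 ^ ((D + 1) * (2 * W + 3) + 1) ∧ (p : ℤ) ∣ x ^ 2 + y ^ 2 := by
  classical
  let ι := Fin (D + 1) × Fin (2 * W + 3)
  obtain ⟨pr', hinj', hpr', hne2', hsq', hprod'⟩ := supply ((D + 1) * (2 * W + 3))
  let pr : ι → ℕ := fun i => pr' (finProdFinEquiv i)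
  have hpr : ∀ i, (pr i).Prime := fun i => hpr' _
  have hne2 : ∀ i, pr i ≠ 2 := fun i => hne2' _
  have hsq : ∀ i, IsSquare (-1 : ZMod (pr i)) := fun i => hsq' _
  have hinj : Function.Injective pr := fun i j hij => finProdFinEquiv.injective (hinj' hij)
  have : ∀ i, Fact (pr i).Prime := fun i => ⟨hpr i⟩
  obtain ⟨Nb, hNb⟩ : ∃ Nb : ℕ, Nb = 2 ^ 2 ^ ((D + 1) * (2 * W + 3) + 1) := ⟨_, rfl⟩
  rw [← hNb]
  obtain ⟨N, hN⟩ : ∃ N : ℕ, N = ∏ i, pr i := ⟨_, rfl⟩
  have hNle : N ≤ Nb := by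
    rw [hN, hNb]
    have : ∏ i, pr i = ∏ j, pr' j := Equiv.prod_comp finProdFinEquiv pr'
    rw [this]; exact hprod'
  have hNpos : 0 < N := by rw [hN]; exact Finset.prod_pos (fun i _ => (hpr i).pos)
  have hdvdN : ∀ i, pr i ∣ N := fun i => by rw [hN]; exact Finset.dvd_prod_of_mem pr (Finset.mem_univ i)
  obtain ⟨q, hq, hqden⟩ := Real.exists_rat_abs_sub_le_and_den_le α hNpos
  obtain ⟨b, hb⟩ : ∃ b : ℕ, b = q.den := ⟨_, rfl⟩
  obtain ⟨a, ha⟩ : ∃ a : ℤ, a = q.num := ⟨_, rfl⟩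
  have hbN : b ≤ N := by rw [hb]; exact hqden
  have hbpos : 0 < b := by rw [hb]; exact q.den_pos
  have hbR : (0 : ℝ) < b := by exact_mod_cast hbpos
  have hcop : a.natAbs.Coprime b := by rw [ha, hb]; exact q.reduced
  have hδ : |α * b - a| ≤ 1 / ((N : ℝ) + 1) := by
    have hqab : (q : ℝ) = a / b := by
      rw [ha, hb]; exact_mod_cast (Rat.num_div_den q).symm
    rw [hqab, ← hb] at hq
    have h1 : α * b - a = (α - a / b) * b := by field_simp
    rw [h1, abs_mul, abs_of_pos hbR]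
    calc |α - a / b| * b ≤ 1 / (((N : ℝ) + 1) * b) * b := by gcongr
      _ = 1 / ((N : ℝ) + 1) := by field_simp
  have hroot : ∀ i, ∃ r : ZMod (pr i), r ^ 2 = -1 ∧ (b : ZMod (pr i)) - r * (a : ZMod (pr i)) ≠ 0 :=
    fun i => exists_root (pr i) (hsq i) (hne2 i) a b hcop
  choose r hr1 hr2 using hroot
  obtain ⟨y', hy'⟩ : ∃ y' : ℤ, y' = ⌊α * x' + β⌋ := ⟨_, rfl⟩
  let c : ℕ → ℤ := fun j => ⌊α * j⌋
  let t : ∀ i : ι, ZMod (pr i) := fun i =>
    -(((x' + ((i.1 : ℕ) : ℤ) : ℤ) : ZMod (pr i))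
        - r i * ((y' + c i.1 + ((i.2 : ℕ) : ℤ) - W : ℤ) : ZMod (pr i)))
      / ((b : ZMod (pr i)) - r i * (a : ZMod (pr i)))
  obtain ⟨k, hk⟩ := Nat.chineseRemainderOfFinset (fun i => (t i).val) pr Finset.univ
    (fun i _ => (hpr i).ne_zero)
    (fun i _ j _ hij => (Nat.coprime_primes (hpr i) (hpr j)).2 (fun h => hij (hinj h)))
  obtain ⟨k0, hk0⟩ : ∃ k0 : ℕ, k0 = k % N := ⟨_, rfl⟩
  have hk0lt : k0 < N := by rw [hk0]; exact Nat.mod_lt _ hNpos
  have hkt : ∀ i, (k0 : ZMod (pr i)) = t i := by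
    intro i
    have h1 : k0 ≡ k [MOD pr i] := by
      rw [hk0]; exact (Nat.mod_modEq k N).of_dvd (hdvdN i)
    have h2 := h1.trans (hk i (Finset.mem_univ i))
    rw [← ZMod.natCast_eq_natCast_iff] at h2
    rw [h2, ZMod.natCast_zmod_val]
  refine ⟨x' + k0 * b, le_add_of_nonneg_right (by positivity), ?_, ?_⟩
  · have : (k0 : ℤ) * b ≤ (Nb : ℤ) ^ 2 := by
      have : k0 * b ≤ Nb ^ 2 := by
        rw [sq]; exact Nat.mul_le_mul (hk0lt.le.trans hNle) (hbN.trans hNle)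
      exact_mod_cast this
    linarith
  intro x y hx1 hx2 hy
  obtain ⟨j, hj⟩ : ∃ j : ℕ, (j : ℤ) = x - (x' + k0 * b) := ⟨(x - (x' + k0 * b)).toNat, Int.toNat_of_nonneg (by linarith)⟩
  have hjD : j < D + 1 := by
    have : (j : ℤ) < D + 1 := by rw [hj]; linarith
    exact_mod_cast this
  have hxR : (x : ℝ) = x' + k0 * b + j := by
    have : x = x' + k0 * b + j := by rw [hj]; ring
    exact_mod_cast this
  have e0a : (y' : ℝ) ≤ α * x' + β := by rw [hy']; exact Int.floor_le _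
  have e0b : α * x' + β < y' + 1 := by rw [hy']; exact Int.lt_floor_add_one _
  have eja : (c j : ℝ) ≤ α * j := Int.floor_le _
  have ejb : α * j < c j + 1 := Int.lt_floor_add_one _
  have hkδ : |(k0 : ℝ) * (α * b - a)| < 1 := by
    rw [abs_mul, abs_of_nonneg (Nat.cast_nonneg k0)]
    have hN1 : (0 : ℝ) < (N : ℝ) + 1 := by positivity
    calc (k0 : ℝ) * |α * b - a| ≤ k0 * (1 / ((N : ℝ) + 1)) := by gcongr
      _ < 1 := by
        rw [mul_one_div, div_lt_one hN1]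
        have : (k0 : ℝ) < N := by exact_mod_cast hk0lt
        linarith
  rw [abs_lt] at hkδ
  rw [abs_le] at hy
  have hw1 : (-(W : ℝ) - 1) < ((y - (y' + k0 * a) - c j : ℤ) : ℝ) := by
    push_cast
    rw [hxR] at hy
    nlinarith [hy.1, hkδ.1]
  have hw2 : ((y - (y' + k0 * a) - c j : ℤ) : ℝ) < (W : ℝ) + 3 := by
    push_cast
    rw [hxR] at hy
    nlinarith [hy.2, hkδ.2]
  have hw1' : -(W : ℤ) - 1 < y - (y' + k0 * a) - c j := by exact_mod_cast hw1
  have hw2' : y - (y' + k0 * a) - c j < (W : ℤ) + 3 := by exact_mod_cast hw2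
  obtain ⟨w, hw⟩ : ∃ w : ℕ, (w : ℤ) = y - (y' + k0 * a) - c j + W :=
    ⟨(y - (y' + k0 * a) - c j + W).toNat, Int.toNat_of_nonneg (by linarith)⟩
  have hwlt : w < 2 * W + 3 := by
    have : (w : ℤ) < 2 * W + 3 := by rw [hw]; linarith
    exact_mod_cast this
  let i : ι := (⟨j, hjD⟩, ⟨w, hwlt⟩)
  refine ⟨pr i, hpr i, (Nat.le_of_dvd hNpos (hdvdN i)).trans hNle, ?_⟩
  rw [← ZMod.intCast_zmod_eq_zero_iff_dvd]
  have hxZ : (x : ZMod (pr i)) = ((x' + (j : ℤ) : ℤ) : ZMod (pr i)) + k0 * b := by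
    have : x = (x' + (j : ℤ)) + k0 * b := by rw [hj]; ring
    rw [this]; push_cast; ring
  have hyZ : (y : ZMod (pr i)) = ((y' + c j + (w : ℤ) - W : ℤ) : ZMod (pr i)) + k0 * a := by
    have : y = (y' + c j + (w : ℤ) - W) + k0 * a := by rw [hw]; ring
    rw [this]; push_cast; ring
  have hkey : (x : ZMod (pr i)) - r i * (y : ZMod (pr i)) = 0 := by
    have h1 := hkt i
    have h2 : (k0 : ZMod (pr i)) * ((b : ZMod (pr i)) - r i * (a : ZMod (pr i)))
        = -(((x' + (j : ℤ) : ℤ) : ZMod (pr i)) - r i * ((y' + c j + (w : ℤ) - W : ℤ) : ZMod (pr i))) := by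
      rw [h1]
      exact div_mul_cancel₀ _ (hr2 i)
    rw [hxZ, hyZ]
    linear_combination h2
  push_cast
  have h3 := hr1 i
  linear_combination ((x : ZMod (pr i)) + r i * y) * hkey + (y : ZMod (pr i)) ^ 2 * h3

/-- one-sided bound for a chain in a strip -/
lemma path_le (α β : ℝ) (D W Nb : ℕ) (hNb : Nb = 2 ^ 2 ^ ((D + 1) * (2 * W + 3) + 1))
    (m : ℕ) (x y : ℕ → ℤ)
    (hstep : ∀ k < m, |x (k + 1) - x k| ≤ D)
    (hstrip : ∀ k ≤ m, |(y k : ℝ) - α * x k - β| ≤ W)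
    (hprime : ∀ k ≤ m, ∀ p : ℕ, p.Prime → (p : ℤ) ∣ x k ^ 2 + y k ^ 2 →
      x k ^ 2 + y k ^ 2 ≤ (p : ℤ) ^ 2) :
    x m ≤ max (x 0) Nb + 1 + (Nb : ℤ) ^ 2 := by
  obtain ⟨w0, hw1, hw2, hwin⟩ := window α β D W (max (x 0) Nb + 1)
  rw [← hNb] at hw2 hwin
  have hx0 : x 0 < w0 := by have := le_max_left (x 0) (Nb : ℤ); linarith
  have hNw : (Nb : ℤ) + 1 ≤ w0 := by have := le_max_right (x 0) (Nb : ℤ); linarith
  have key : ∀ k, k ≤ m → x k < w0 := by
    intro k
    induction k with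
    | zero => intro _; exact hx0
    | succ k ih =>
      intro hk
      have h1 := ih (by omega)
      have hs := abs_le.1 (hstep k (by omega))
      by_contra hcon
      rw [not_lt] at hcon
      obtain ⟨p, hp, hpN, hdvd⟩ := hwin (x (k + 1)) (y (k + 1)) hcon (by linarith [hs.2]) (hstrip _ hk)
      have h4 := hprime _ hk p hp hdvd
      have h5 : (p : ℤ) ≤ Nb := by exact_mod_cast hpN
      have h6 : (p : ℤ) ^ 2 ≤ (Nb : ℤ) ^ 2 := by
        have : (0 : ℤ) ≤ p := by positivity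
        nlinarith
      have h7 : ((Nb : ℤ) + 1) ^ 2 ≤ x (k + 1) ^ 2 := by
        have : (0 : ℤ) ≤ Nb := by positivity
        nlinarith
      nlinarith [sq_nonneg (y (k + 1))]
  have := key m le_rfl
  linarith

lemma path_abs (α β : ℝ) (D W Nb : ℕ) (hNb : Nb = 2 ^ 2 ^ ((D + 1) * (2 * W + 3) + 1))
    (m : ℕ) (x y : ℕ → ℤ)
    (hstep : ∀ k < m, |x (k + 1) - x k| ≤ D)
    (hstrip : ∀ k ≤ m, |(y k : ℝ) - α * x k - β| ≤ W)
    (hprime : ∀ k ≤ m, ∀ p : ℕ, p.Prime → (p : ℤ) ∣ x k ^ 2 + y k ^ 2 →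
      x k ^ 2 + y k ^ 2 ≤ (p : ℤ) ^ 2) :
    |x m - x 0| ≤ 2 * (Nb : ℤ) + 2 + 2 * (Nb : ℤ) ^ 2 := by
  have h1 := path_le α β D W Nb hNb m x y hstep hstrip hprime
  have h2 := path_le α β D W Nb hNb m (fun k => x (m - k)) (fun k => y (m - k))
    (by
      intro k hk
      have h := hstep (m - (k + 1)) (by omega)
      have e : m - (k + 1) + 1 = m - k := by omega
      rw [e, abs_sub_comm] at h
      exact h)
    (fun k _ => hstrip (m - k) (by omega))
    (fun k _ => hprime (m - k) (by omega))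
  have h3 := path_le (-α) β D W Nb hNb m (fun k => -x k) y
    (by
      intro k hk
      have h := hstep k hk
      rw [abs_sub_comm] at h
      have e : -x (k + 1) - -x k = x k - x (k + 1) := by ring
      rw [e]; exact h)
    (by
      intro k hk
      have h := hstrip k hk
      have e : (y k : ℝ) - -α * ((-x k : ℤ) : ℝ) - β = (y k : ℝ) - α * x k - β := by push_cast; ring
      rw [e]; exact h)
    (by
      intro k hk p hp hd
      have e : (-x k) ^ 2 = x k ^ 2 := by ring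
      rw [e] at hd ⊢
      exact hprime k hk p hp hd)
  have h4 := path_le (-α) β D W Nb hNb m (fun k => -x (m - k)) (fun k => y (m - k))
    (by
      intro k hk
      have h := hstep (m - (k + 1)) (by omega)
      have e : m - (k + 1) + 1 = m - k := by omega
      rw [e] at h
      have e2 : -x (m - (k + 1)) - -x (m - k) = x (m - k) - x (m - (k + 1)) := by ring
      rw [e2]; exact h)
    (by
      intro k hk
      have h := hstrip (m - k) (by omega)
      have e : (y (m - k) : ℝ) - -α * ((-x (m - k) : ℤ) : ℝ) - β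
          = (y (m - k) : ℝ) - α * x (m - k) - β := by push_cast; ring
      rw [e]; exact h)
    (by
      intro k hk p hp hd
      have e : (-x (m - k)) ^ 2 = x (m - k) ^ 2 := by ring
      rw [e] at hd ⊢
      exact hprime (m - k) (by omega) p hp hd)
  simp only [Nat.sub_self, Nat.sub_zero] at h2 h4
  have hN0 : (0 : ℤ) ≤ Nb := by positivity
  have hN2 : (0 : ℤ) ≤ (Nb : ℤ) ^ 2 := by positivity
  rw [abs_le]
  constructor
  · rcases le_total (x m) (Nb : ℤ) with ha | ha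
    · rw [max_eq_right ha] at h2
      rcases le_total (-x 0) (Nb : ℤ) with hb | hb
      · rw [max_eq_right hb] at h3
        linarith
      · rw [max_eq_left hb] at h3
        linarith
    · rw [max_eq_left ha] at h2
      linarith
  · rcases le_total (x 0) (Nb : ℤ) with ha | ha
    · rw [max_eq_right ha] at h1
      rcases le_total (-x m) (Nb : ℤ) with hb | hb
      · rw [max_eq_right hb] at h4
        linarith
      · rw [max_eq_left hb] at h4
        linarith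
    · rw [max_eq_left ha] at h1
      linarith

lemma core2 (α β W D : ℝ) (hα : |α| ≤ 1) (D' W' : ℕ) (hD : D ≤ D') (hW : W ≤ W')
    (m : ℕ) (x y : ℕ → ℤ)
    (hstep : ∀ k < m, |(x (k + 1) : ℝ) - x k| ≤ D)
    (hstrip : ∀ k ≤ m, |(y k : ℝ) - α * x k - β| ≤ W)
    (hprime : ∀ k ≤ m, ∀ p : ℕ, p.Prime → (p : ℤ) ∣ x k ^ 2 + y k ^ 2 →
      x k ^ 2 + y k ^ 2 ≤ (p : ℤ) ^ 2) :
    |(x 0 : ℝ) - x m| + |(y 0 : ℝ) - y m| ≤ 2 ^ 2 ^ ((D' + 1) * (2 * W' + 3) + 3) := by
  obtain ⟨Nb, hNb⟩ : ∃ Nb : ℕ, Nb = 2 ^ 2 ^ ((D' + 1) * (2 * W' + 3) + 1) := ⟨_, rfl⟩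
  have hx := path_abs α β D' W' Nb hNb m x y
    (by
      intro k hk
      have h1 : |(x (k + 1) : ℝ) - x k| ≤ D' := (hstep k hk).trans hD
      exact_mod_cast h1)
    (fun k hk => (hstrip k hk).trans hW) hprime
  have hxR : |(x m : ℝ) - x 0| ≤ 2 * (Nb : ℝ) + 2 + 2 * (Nb : ℝ) ^ 2 := by exact_mod_cast hx
  have hy : |(y 0 : ℝ) - y m| ≤ |(x m : ℝ) - x 0| + 2 * W' := by
    have h0 := (hstrip 0 (Nat.zero_le _)).trans hW
    have hm := (hstrip m le_rfl).trans hW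
    have e : (y 0 : ℝ) - y m = ((y 0 : ℝ) - α * x 0 - β) - ((y m : ℝ) - α * x m - β) - α * ((x m : ℝ) - x 0) := by ring
    have h3 : |α * ((x m : ℝ) - x 0)| ≤ |(x m : ℝ) - x 0| := by
      rw [abs_mul]
      calc |α| * |(x m : ℝ) - x 0| ≤ 1 * |(x m : ℝ) - x 0| := by gcongr
        _ = _ := one_mul _
    rw [e]
    calc |((y 0 : ℝ) - α * x 0 - β) - ((y m : ℝ) - α * x m - β) - α * ((x m : ℝ) - x 0)|
        ≤ |((y 0 : ℝ) - α * x 0 - β) - ((y m : ℝ) - α * x m - β)| + |α * ((x m : ℝ) - x 0)| := abs_sub _ _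
      _ ≤ (|((y 0 : ℝ) - α * x 0 - β)| + |((y m : ℝ) - α * x m - β)|) + |α * ((x m : ℝ) - x 0)| := by
          gcongr; exact abs_sub _ _
      _ ≤ _ := by linarith
  -- numerics
  have hK : W' ≤ (D' + 1) * (2 * W' + 3) + 1 := by nlinarith
  have hWN : W' ≤ Nb := by
    rw [hNb]
    calc W' ≤ (D' + 1) * (2 * W' + 3) + 1 := hK
      _ ≤ 2 ^ ((D' + 1) * (2 * W' + 3) + 1) := Nat.lt_two_pow_self.le
      _ ≤ 2 ^ 2 ^ ((D' + 1) * (2 * W' + 3) + 1) := Nat.lt_two_pow_self.le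
  have hN4 : 4 ≤ Nb := by
    rw [hNb]
    calc 4 = 2 ^ 2 ^ 1 := by norm_num
      _ ≤ 2 ^ 2 ^ ((D' + 1) * (2 * W' + 3) + 1) := by
          apply Nat.pow_le_pow_right (by norm_num)
          apply Nat.pow_le_pow_right (by norm_num)
          omega
  have hpow : (2 : ℝ) ^ 2 ^ ((D' + 1) * (2 * W' + 3) + 3) = (Nb : ℝ) ^ 4 := by
    rw [hNb]
    push_cast
    rw [← pow_mul]
    congr 1
    rw [show (D' + 1) * (2 * W' + 3) + 3 = ((D' + 1) * (2 * W' + 3) + 1) + 2 by ring, pow_add]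
    norm_num
  rw [hpow, abs_sub_comm (x 0 : ℝ)]
  have hWNR : (W' : ℝ) ≤ Nb := by exact_mod_cast hWN
  have hN4R : (4 : ℝ) ≤ Nb := by exact_mod_cast hN4
  have h16 : (16 : ℝ) ≤ (Nb : ℝ) ^ 2 := by nlinarith
  have : (Nb : ℝ) ^ 4 = (Nb : ℝ) ^ 2 * (Nb : ℝ) ^ 2 := by ring
  nlinarith

/-- **No long straight corridors.** A chain `z 0, ..., z m` of Gaussian primes with consecutive
distances at most `D`, contained in the strip of half-width `W` around an arbitrary real line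
`A x + B y = C` (`A^2 + B^2 = 1`), has end-to-end distance at most
`2 ^ 2 ^ ((⌈D⌉ + 1) (2 ⌈2 W⌉ + 3) + 3)`. -/
theorem result (D W A B C : ℝ) (hAB : A ^ 2 + B ^ 2 = 1) (m : ℕ) (z : ℕ → GaussianInt)
    (hprime : ∀ k ≤ m, Prime (z k))
    (hstep : ∀ k < m, dist (GaussianInt.toComplex (z k)) (GaussianInt.toComplex (z (k + 1))) ≤ D)
    (hstrip : ∀ k ≤ m, |A * ((z k).re : ℝ) + B * ((z k).im : ℝ) - C| ≤ W) :
    dist (GaussianInt.toComplex (z 0)) (GaussianInt.toComplex (z m))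
      ≤ 2 ^ 2 ^ ((⌈D⌉₊ + 1) * (2 * ⌈2 * W⌉₊ + 3) + 3) := by
  have hW0 : 0 ≤ W := (abs_nonneg _).trans (hstrip 0 (Nat.zero_le _))
  have hre : ∀ k < m, |((z (k + 1)).re : ℝ) - (z k).re| ≤ D := by
    intro n hn
    have h1 := Complex.abs_re_le_norm (GaussianInt.toComplex (z n) - GaussianInt.toComplex (z (n + 1)))
    rw [← dist_eq_norm] at h1
    have h2 := h1.trans (hstep n hn)
    rw [abs_sub_comm]
    simpa using h2
  have him : ∀ k < m, |((z (k + 1)).im : ℝ) - (z k).im| ≤ D := by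
    intro n hn
    have h1 := Complex.abs_im_le_norm (GaussianInt.toComplex (z n) - GaussianInt.toComplex (z (n + 1)))
    rw [← dist_eq_norm] at h1
    have h2 := h1.trans (hstep n hn)
    rw [abs_sub_comm]
    simpa using h2
  have hnorm : ∀ n, (z n).norm = (z n).re ^ 2 + (z n).im ^ 2 := by
    intro n; rw [Zsqrtd.norm_def]; ring
  have hdist : dist (GaussianInt.toComplex (z 0)) (GaussianInt.toComplex (z m))
      ≤ |((z 0).re : ℝ) - (z m).re| + |((z 0).im : ℝ) - (z m).im| := by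
    rw [dist_eq_norm]
    have := Complex.norm_le_abs_re_add_abs_im (GaussianInt.toComplex (z 0) - GaussianInt.toComplex (z m))
    simpa using this
  -- auxiliary: for `E^2 ≤ F^2`, `E^2 + F^2 = 1`
  have aux : ∀ E F : ℝ, E ^ 2 + F ^ 2 = 1 → E ^ 2 ≤ F ^ 2 →
      F ≠ 0 ∧ |-E / F| ≤ 1 ∧ W / |F| ≤ 2 * W := by
    intro E F h1 h2
    have hF2 : (1 : ℝ) / 2 ≤ F ^ 2 := by linarith
    have hF0 : F ≠ 0 := by rintro rfl; norm_num at hF2
    have hFpos : 0 < |F| := abs_pos.2 hF0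
    have hFhalf : (1 : ℝ) / 2 ≤ |F| := by
      by_contra hc
      rw [not_le] at hc
      have : |F| ^ 2 < 1 / 4 := by nlinarith
      rw [sq_abs] at this
      linarith
    refine ⟨hF0, ?_, ?_⟩
    · rw [abs_div, abs_neg, div_le_one hFpos]
      exact sq_le_sq.1 h2
    · rw [div_le_iff₀ hFpos]
      nlinarith
  refine hdist.trans ?_
  rcases le_total (A ^ 2) (B ^ 2) with h | h
  · obtain ⟨hB, hα, hWB⟩ := aux A B hAB h
    refine core2 (-A / B) (C / B) (W / |B|) D hα ⌈D⌉₊ ⌈2 * W⌉₊ (Nat.le_ceil D)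
      (hWB.trans (Nat.le_ceil _)) m (fun n => (z n).re) (fun n => (z n).im) hre ?_ ?_
    · intro n hn
      have h1 : ((z n).im : ℝ) - -A / B * (z n).re - C / B
          = (A * ((z n).re : ℝ) + B * ((z n).im : ℝ) - C) / B := by field_simp; ring
      rw [h1, abs_div]
      gcongr
      exact hstrip n hn
    · intro n hn p hp hdvd
      have := norm_le_sq_of_prime (hprime n hn) hp (by rw [hnorm]; exact hdvd)
      rw [hnorm] at this
      linarith
  · obtain ⟨hA, hα, hWA⟩ := aux B A (by linarith) h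
    rw [add_comm]
    refine core2 (-B / A) (C / A) (W / |A|) D hα ⌈D⌉₊ ⌈2 * W⌉₊ (Nat.le_ceil D)
      (hWA.trans (Nat.le_ceil _)) m (fun n => (z n).im) (fun n => (z n).re) him ?_ ?_
    · intro n hn
      have h1 : ((z n).re : ℝ) - -B / A * (z n).im - C / A
          = (A * ((z n).re : ℝ) + B * ((z n).im : ℝ) - C) / A := by field_simp; ring
      rw [h1, abs_div]
      gcongr
      exact hstrip n hn
    · intro n hn p hp hdvd
      have := norm_le_sq_of_prime (hprime n hn) hp (by rw [hnorm]; rw [add_comm]; exact hdvd)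
      rw [hnorm] at this
      linarith

end Vale.Agent.Results.P015.Corridor
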