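import Mathlib
import Vale.Agent.Results.P015.Corridor

namespace Vale.Agent.Results.P015.StraightRegions

open GaussianInt

/-- only finitely many Gaussian integers lie in a ball -/
lemma finite_ball (c : ℂ) (R : ℝ) : {z : GaussianInt | dist (toComplex z) c ≤ R}.Finite := by
  obtain ⟨Y, hY⟩ : ∃ Y : ℕ, R + ‖c‖ ≤ Y := ⟨_, Nat.le_ceil _⟩
  have hsub : {z : GaussianInt | dist (toComplex z) c ≤ R} ⊆
      (fun p : ℤ × ℤ => (⟨p.1, p.2⟩ : GaussianInt)) '' (Set.Icc (-(Y : ℤ)) Y ×ˢ Set.Icc (-(Y : ℤ)) Y) := by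
    intro z hz
    have hz' : dist (toComplex z) c ≤ R := hz
    have hn : ‖toComplex z‖ ≤ Y := by
      have h1 : ‖toComplex z‖ ≤ ‖toComplex z - c‖ + ‖c‖ := by
        have := norm_add_le (toComplex z - c) c
        simpa using this
      rw [dist_eq_norm] at hz'
      linarith
    have hre : |(z.re : ℝ)| ≤ Y := by
      have := Complex.abs_re_le_norm (toComplex z)
      rw [← intCast_re] at this
      linarith
    have him : |(z.im : ℝ)| ≤ Y := by
      have := Complex.abs_im_le_norm (toComplex z)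
      rw [← intCast_im] at this
      linarith
    have hre' : |z.re| ≤ (Y : ℤ) := by exact_mod_cast hre
    have him' : |z.im| ≤ (Y : ℤ) := by exact_mod_cast him
    exact ⟨(z.re, z.im), ⟨abs_le.1 hre', abs_le.1 him'⟩, rfl⟩
  exact Set.Finite.subset (((Set.finite_Icc _ _).prod (Set.finite_Icc _ _)).image _) hsub

/-- **No walk to infinity in an asymptotically straight region.**
Let `T` be a set of complex numbers which is *asymptotically straight of half-width `W`*: for every
`L` there is `R₀` such that for every centre `c` with `‖c‖ ≥ R₀` the part of `T` in the ball of radius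
`L` about `c` lies in the strip of half-width `W` about some straight line.  Then for no `D` is there
an infinite sequence of distinct Gaussian primes in `T` with consecutive distances at most `D`. -/
theorem result (D W : ℝ) (T : Set ℂ)
    (hT : ∀ L : ℝ, ∃ R₀ : ℝ, ∀ c : ℂ, R₀ ≤ ‖c‖ → ∃ A B C : ℝ, A ^ 2 + B ^ 2 = 1 ∧
      ∀ w ∈ T, dist w c ≤ L → |A * w.re + B * w.im - C| ≤ W) :
    ¬ ∃ z : ℕ → GaussianInt, Function.Injective z ∧ (∀ n, Prime (z n)) ∧
      (∀ n, dist (toComplex (z n)) (toComplex (z (n + 1))) ≤ D) ∧ (∀ n, toComplex (z n) ∈ T) := by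
  rintro ⟨z, hinj, hprime, hstep, hzT⟩
  obtain ⟨Bd, hBd⟩ : ∃ Bd : ℝ, Bd = 2 ^ 2 ^ ((⌈D⌉₊ + 1) * (2 * ⌈2 * W⌉₊ + 3) + 3) := ⟨_, rfl⟩
  obtain ⟨R₀, hR₀⟩ := hT (Bd + D)
  -- the walk leaves every ball
  have hleave : ∀ (c : ℂ) (R : ℝ) (n₀ : ℕ), ∃ n, n₀ ≤ n ∧ R < dist (toComplex (z n)) c := by
    intro c R n₀
    by_contra hcon
    push Not at hcon
    have hfin := finite_ball c R
    have hinj' : Function.Injective (fun n : ℕ => z (n₀ + n)) := by
      intro a b hab
      have := hinj hab
      omega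
    have hsub : Set.range (fun n : ℕ => z (n₀ + n)) ⊆ {z : GaussianInt | dist (toComplex z) c ≤ R} := by
      rintro _ ⟨n, rfl⟩
      exact hcon (n₀ + n) (Nat.le_add_right _ _)
    exact (Set.infinite_range_of_injective hinj') (hfin.subset hsub)
  obtain ⟨n₀, -, hn₀⟩ := hleave 0 R₀ 0
  have hc : R₀ ≤ ‖toComplex (z n₀)‖ := by
    rw [dist_zero_right] at hn₀
    exact hn₀.le
  obtain ⟨A, B, C, hAB, hstrip⟩ := hR₀ (toComplex (z n₀)) hc
  -- first exit from the ball of radius `Bd`
  have hex : ∃ m, Bd < dist (toComplex (z (n₀ + m))) (toComplex (z n₀)) := by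
    obtain ⟨n, hn, hd⟩ := hleave (toComplex (z n₀)) Bd n₀
    exact ⟨n - n₀, by rwa [Nat.add_sub_cancel' hn]⟩
  classical
  let m := Nat.find hex
  have hm : Bd < dist (toComplex (z (n₀ + m))) (toComplex (z n₀)) := Nat.find_spec hex
  have hlt : ∀ k < m, dist (toComplex (z (n₀ + k))) (toComplex (z n₀)) ≤ Bd := by
    intro k hk
    exact not_lt.1 (Nat.find_min hex hk)
  have hBd0 : 0 ≤ Bd := by rw [hBd]; positivity
  have hD0 : 0 ≤ D := dist_nonneg.trans (hstep 0)
  have hle : ∀ k ≤ m, dist (toComplex (z (n₀ + k))) (toComplex (z n₀)) ≤ Bd + D := by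
    intro k hk
    rcases Nat.lt_or_ge k m with h | h
    · linarith [hlt k h]
    · have hkm : k = m := le_antisymm hk h
      rcases Nat.eq_zero_or_pos m with h0 | hpos
      · rw [hkm, h0]; simp; linarith
      · obtain ⟨j, hj⟩ : ∃ j, m = j + 1 := ⟨m - 1, by omega⟩
        have h1 := hlt j (by omega)
        have h2 := hstep (n₀ + j)
        rw [hkm, hj]
        calc dist (toComplex (z (n₀ + (j + 1)))) (toComplex (z n₀))
            ≤ dist (toComplex (z (n₀ + (j + 1)))) (toComplex (z (n₀ + j)))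
              + dist (toComplex (z (n₀ + j))) (toComplex (z n₀)) := dist_triangle _ _ _
          _ ≤ D + Bd := by
              rw [dist_comm (toComplex (z (n₀ + (j + 1))))]
              exact add_le_add h2 h1
          _ = Bd + D := add_comm _ _
  have key := Vale.Agent.Results.P015.Corridor.result D W A B C hAB m (fun k => z (n₀ + k))
    (fun k _ => hprime _) (fun k _ => hstep (n₀ + k))
    (fun k hk => by
      have := hstrip _ (hzT (n₀ + k)) (hle k hk)
      simpa using this)
  rw [← hBd] at key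
  simp only [Nat.add_zero] at key
  rw [dist_comm] at key
  linarith

end Vale.Agent.Results.P015.StraightRegions
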