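import Mathlib
import Vale.Agent.Lib.P015.Diag

namespace Vale.Agent.Results.P015.DiagonalMonotone

open Vale.Agent.Lib.P015.Diag

lemma norm_le_sq_of_prime {z : GaussianInt} (hz : Prime z) {p : ℕ} (hp : p.Prime)
    (hdvd : (p : ℤ) ∣ z.norm) : z.norm ≤ (p : ℤ) ^ 2 := by
  have hz0 : z ≠ 0 := hz.ne_zero
  obtain ⟨n, hn⟩ : ∃ n : ℕ, (n : ℤ) = z.norm := ⟨z.norm.natAbs, Int.natAbs_of_nonneg (GaussianInt.norm_nonneg z)⟩
  have hn0 : n ≠ 0 := by
    rintro rfl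
    have h0 : z.norm = 0 := by simpa using hn.symm
    exact hz0 ((Zsqrtd.norm_eq_zero_iff (by norm_num) z).1 h0)
  have hzn : z ∣ ((n : ℕ) : GaussianInt) := by
    refine ⟨star z, ?_⟩
    rw [← Zsqrtd.norm_eq_mul_conj, ← hn]
    simp
  obtain ⟨q, hq, hzq⟩ : ∃ q : ℕ, q.Prime ∧ z ∣ (q : GaussianInt) := by
    rw [← Nat.prod_primeFactorsList hn0, Nat.cast_list_prod, hz.dvd_prod_iff] at hzn
    obtain ⟨a, ha, hza⟩ := hzn
    obtain ⟨q, hq, rfl⟩ := List.mem_map.1 ha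
    exact ⟨q, Nat.prime_of_mem_primeFactorsList hq, hza⟩
  have hnq : n ∣ q ^ 2 := by
    obtain ⟨w, hw⟩ := hzq
    have h1 : ((q : GaussianInt)).norm = z.norm * w.norm := by rw [hw, Zsqrtd.norm_mul]
    rw [Zsqrtd.norm_natCast, ← hn] at h1
    have : (n : ℤ) ∣ ((q ^ 2 : ℕ) : ℤ) := ⟨w.norm, by push_cast; rw [← h1]; ring⟩
    exact_mod_cast this
  obtain ⟨k, hk, hnk⟩ := (Nat.dvd_prime_pow hq).1 hnq
  have hpn : p ∣ n := by
    rw [← hn] at hdvd
    exact_mod_cast hdvd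
  have hpq : p = q := by
    rw [hnk] at hpn
    exact (Nat.prime_dvd_prime_iff_eq hp hq).1 (hp.dvd_of_dvd_pow hpn)
  rw [← hn, hnk, ← hpq]
  have : p ^ k ≤ p ^ 2 := Nat.pow_le_pow_right hp.pos hk
  exact_mod_cast this

/-- the sieve condition on an integer site -/
def OpenZ (x y : ℤ) : Prop :=
  ∀ p : ℕ, p = 3 ∨ p = 5 ∨ p = 13 ∨ p = 17 ∨ p = 29 → ¬ (p : ℤ) ∣ x ^ 2 + y ^ 2

lemma dvd_M (p : ℕ) (hp : p = 3 ∨ p = 5 ∨ p = 13 ∨ p = 17 ∨ p = 29) : (p : ℤ) ∣ 96135 := by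
  rcases hp with h | h | h | h | h <;> subst h <;> norm_num

/-- No infinite walk on sieved sites with the four north-east steps. -/
theorem no_int_walk (x y : ℕ → ℤ)
    (hstep : ∀ n, (x (n + 1) = x n + 1 ∧ y (n + 1) = y n + 1) ∨
      (x (n + 1) = x n + 2 ∧ y (n + 1) = y n) ∨ (x (n + 1) = x n ∧ y (n + 1) = y n + 2) ∨
      (x (n + 1) = x n + 2 ∧ y (n + 1) = y n + 2))
    (hodd : (x 0 + y 0) % 2 = 1)
    (hopen : ∀ n, OpenZ (x n) (y n)) : False := by
  have hoddn : ∀ n, (x n + y n) % 2 = 1 := by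
    intro n
    induction n with
    | zero => exact hodd
    | succ n ih => rcases hstep n with ⟨h1, h2⟩ | ⟨h1, h2⟩ | ⟨h1, h2⟩ | ⟨h1, h2⟩ <;> omega
  have hgrow : ∀ n, x 0 + y 0 + 2 * n ≤ x n + y n := by
    intro n
    induction n with
    | zero => simp
    | succ n ih =>
      push_cast
      rcases hstep n with ⟨h1, h2⟩ | ⟨h1, h2⟩ | ⟨h1, h2⟩ | ⟨h1, h2⟩ <;> omega
  obtain ⟨t, ht⟩ : ∃ t : ℤ, x 0 + y 0 < 2 * 96135 * t + 1 := ⟨|x 0 + y 0| + 1, by
    have := le_abs_self (x 0 + y 0)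
    have h0 := abs_nonneg (x 0 + y 0)
    omega⟩
  have hex : ∃ n : ℕ, 2 * 96135 * t + 1 ≤ x n + y n := by
    refine ⟨(2 * 96135 * t + 1 - (x 0 + y 0)).toNat, ?_⟩
    have h1 := hgrow (2 * 96135 * t + 1 - (x 0 + y 0)).toNat
    have h2 : ((2 * 96135 * t + 1 - (x 0 + y 0)).toNat : ℤ) = 2 * 96135 * t + 1 - (x 0 + y 0) :=
      Int.toNat_of_nonneg (by omega)
    omega
  classical
  obtain ⟨n0, hn0, hmin⟩ : ∃ n0 : ℕ, 2 * 96135 * t + 1 ≤ x n0 + y n0 ∧
      ∀ i < n0, x i + y i < 2 * 96135 * t + 1 :=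
    ⟨Nat.find hex, Nat.find_spec hex, fun i hi => not_le.1 (Nat.find_min hex hi)⟩
  have hn0pos : 0 < n0 := by
    rcases Nat.eq_zero_or_pos n0 with h | h
    · rw [h] at hn0; omega
    · exact h
  obtain ⟨i, hi⟩ : ∃ i, n0 = i + 1 := ⟨n0 - 1, by omega⟩
  have hlast := hmin i (by omega)
  have hup : x n0 + y n0 ≤ 2 * 96135 * t + 3 := by
    have ho := hoddn i
    rw [hi]
    rcases hstep i with ⟨h1, h2⟩ | ⟨h1, h2⟩ | ⟨h1, h2⟩ | ⟨h1, h2⟩ <;> omega
  obtain ⟨q, hq⟩ : ∃ q : ℤ, q = x n0 / 96135 := ⟨_, rfl⟩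
  have hq1 : 96135 * q ≤ x n0 := by omega
  have hq2 : x n0 < 96135 * q + 96135 := by omega
  have hxmono : ∀ k, x n0 ≤ x (n0 + k) := by
    intro k
    induction k with
    | zero => simp
    | succ k ih =>
      rw [← add_assoc]
      rcases hstep (n0 + k) with ⟨h1, h2⟩ | ⟨h1, h2⟩ | ⟨h1, h2⟩ | ⟨h1, h2⟩ <;> omega
  have hlmono : ∀ k, x n0 + y n0 ≤ x (n0 + k) + y (n0 + k) := by
    intro k
    induction k with
    | zero => simp
    | succ k ih =>
      rw [← add_assoc]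
      rcases hstep (n0 + k) with ⟨h1, h2⟩ | ⟨h1, h2⟩ | ⟨h1, h2⟩ | ⟨h1, h2⟩ <;> omega
  have hXex : ∀ k, ∃ X : ℕ, (X : ℤ) = x (n0 + k) - 96135 * q := by
    intro k
    have := hxmono k
    exact ⟨(x (n0 + k) - 96135 * q).toNat, Int.toNat_of_nonneg (by omega)⟩
  have hjex : ∀ k, ∃ j : ℕ, 2 * (j : ℤ) + 1 = x (n0 + k) + y (n0 + k) - 2 * 96135 * t := by
    intro k
    have h1 := hlmono k
    have h2 := hoddn (n0 + k)
    refine ⟨((x (n0 + k) + y (n0 + k) - 2 * 96135 * t) / 2).toNat, ?_⟩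
    rw [Int.toNat_of_nonneg (by omega)]
    omega
  choose X hX using hXex
  choose j hj using hjex
  refine no_chain X j ?_ ?_ ?_ ?_
  · have := hj 0
    simp only [add_zero] at this
    omega
  · have := hX 0
    simp only [add_zero] at this
    omega
  · intro k
    have a1 := hX k
    have a2 := hX (k + 1)
    have b1 := hj k
    have b2 := hj (k + 1)
    rw [← add_assoc] at a2 b2
    rcases hstep (n0 + k) with ⟨h1, h2⟩ | ⟨h1, h2⟩ | ⟨h1, h2⟩ | ⟨h1, h2⟩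
    · left; omega
    · left; omega
    · left; omega
    · right; omega
  · intro k p hp hdvd
    refine hopen (n0 + k) p hp ?_
    obtain ⟨c, hc⟩ := dvd_M p hp
    have a1 := hX k
    have b1 := hj k
    have e1 : (X k : ℤ) = x (n0 + k) - p * (c * q) := by rw [a1, hc]; ring
    have e2 : (((2 * j k + 1 : ℕ) : ℤ) - (X k : ℤ)) = y (n0 + k) - p * (c * (2 * t - q)) := by
      push_cast
      rw [b1, a1, hc]; ring
    rw [e2, e1] at hdvd
    have e3 : x (n0 + k) ^ 2 + y (n0 + k) ^ 2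
        = ((x (n0 + k) - p * (c * q)) ^ 2 + (y (n0 + k) - p * (c * (2 * t - q))) ^ 2)
          + p * (2 * x (n0 + k) * (c * q) - p * (c * q) ^ 2
            + 2 * y (n0 + k) * (c * (2 * t - q)) - p * (c * (2 * t - q)) ^ 2) := by ring
    rw [e3]
    exact dvd_add hdvd (dvd_mul_right _ _)

lemma steps (a b : ℤ) (h1 : a ^ 2 + b ^ 2 < 10) (hab : 0 < a + b) (hab2 : (a + b) % 2 = 0) :
    (a = 1 ∧ b = 1) ∨ (a = 2 ∧ b = 0) ∨ (a = 0 ∧ b = 2) ∨ (a = 2 ∧ b = 2) := by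
  have ha1 : a ≤ 3 := by nlinarith [sq_nonneg b]
  have ha2 : -3 ≤ a := by nlinarith [sq_nonneg b]
  have hb1 : b ≤ 3 := by nlinarith [sq_nonneg a]
  have hb2 : -3 ≤ b := by nlinarith [sq_nonneg a]
  interval_cases a <;> interval_cases b <;> omega

/-- **No diagonal-monotone walk to infinity with steps shorter than `√10`.**
There is no infinite sequence of Gaussian primes with consecutive distances `< √10`
along which one of the four linear forms `± Re ± Im` is strictly increasing. -/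
theorem result (e₁ e₂ : ℤ) (he₁ : e₁ = 1 ∨ e₁ = -1) (he₂ : e₂ = 1 ∨ e₂ = -1) :
    ¬ ∃ z : ℕ → GaussianInt, (∀ n, Prime (z n)) ∧
      (∀ n, dist (GaussianInt.toComplex (z n)) (GaussianInt.toComplex (z (n + 1))) < Real.sqrt 10) ∧
      (∀ n, e₁ * (z n).re + e₂ * (z n).im < e₁ * (z (n + 1)).re + e₂ * (z (n + 1)).im) := by
  rintro ⟨z, hprime, hdist, hmono⟩
  have h1sq : e₁ ^ 2 = 1 := by rcases he₁ with h | h <;> rw [h] <;> norm_num
  have h2sq : e₂ ^ 2 = 1 := by rcases he₂ with h | h <;> rw [h] <;> norm_num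
  have hnorm : ∀ n, (z n).norm = (e₁ * (z n).re) ^ 2 + (e₂ * (z n).im) ^ 2 := by
    intro n
    rw [Zsqrtd.norm_def, mul_pow, mul_pow, h1sq, h2sq]; ring
  have hd : ∀ n, (e₁ * (z (n + 1)).re - e₁ * (z n).re) ^ 2
      + (e₂ * (z (n + 1)).im - e₂ * (z n).im) ^ 2 < 10 := by
    intro n
    have h := hdist n
    rw [Complex.dist_eq_re_im, Real.sqrt_lt_sqrt_iff (by positivity)] at h
    simp only [← GaussianInt.intCast_re, ← GaussianInt.intCast_im] at h
    have h' : ((z n).re - (z (n + 1)).re) ^ 2 + ((z n).im - (z (n + 1)).im) ^ 2 < (10 : ℤ) := by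
      exact_mod_cast h
    have e : (e₁ * (z (n + 1)).re - e₁ * (z n).re) ^ 2
        + (e₂ * (z (n + 1)).im - e₂ * (z n).im) ^ 2
        = e₁ ^ 2 * ((z n).re - (z (n + 1)).re) ^ 2 + e₂ ^ 2 * ((z n).im - (z (n + 1)).im) ^ 2 := by
      ring
    rw [e, h1sq, h2sq]
    linarith
  obtain ⟨u, hu⟩ : ∃ u : ℕ → ℤ, ∀ n, u n = e₁ * (z n).re := ⟨_, fun _ => rfl⟩
  obtain ⟨v, hv⟩ : ∃ v : ℕ → ℤ, ∀ n, v n = e₂ * (z n).im := ⟨_, fun _ => rfl⟩
  simp only [← hu, ← hv] at hnorm hd hmono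
  have hgrow : ∀ n : ℕ, u 0 + v 0 + n ≤ u n + v n := by
    intro n
    induction n with
    | zero => simp
    | succ n ih =>
      have := hmono n
      push_cast
      omega
  obtain ⟨N, hN⟩ : ∃ N : ℕ, 42 ≤ u N + v N := by
    refine ⟨(42 - (u 0 + v 0)).toNat, ?_⟩
    have h1 := hgrow (42 - (u 0 + v 0)).toNat
    have h2 := Int.self_le_toNat (42 - (u 0 + v 0))
    omega
  have hbig : ∀ k, 42 ≤ u (N + k) + v (N + k) := by
    intro k
    induction k with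
    | zero => simpa using hN
    | succ k ih =>
      have := hmono (N + k)
      rw [← add_assoc]
      omega
  have hnd : ∀ k (p : ℕ), p.Prime → p ≤ 29 → ¬ (p : ℤ) ∣ u (N + k) ^ 2 + v (N + k) ^ 2 := by
    intro k p hp hp29 hdvd
    have h1 := norm_le_sq_of_prime (hprime (N + k)) hp (by rw [hnorm]; exact hdvd)
    rw [hnorm] at h1
    have h2 := hbig k
    have h3 : (p : ℤ) ≤ 29 := by exact_mod_cast hp29
    have h4 : (0 : ℤ) ≤ p := by positivity
    nlinarith [sq_nonneg (u (N + k) - v (N + k))]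
  have hoddk : ∀ k, (u (N + k) + v (N + k)) % 2 = 1 := by
    intro k
    have h := hnd k 2 Nat.prime_two (by norm_num)
    by_contra hc
    apply h
    have h0 : (u (N + k) + v (N + k)) % 2 = 0 := by omega
    obtain ⟨c, hc'⟩ : (2 : ℤ) ∣ u (N + k) + v (N + k) := Int.dvd_of_emod_eq_zero h0
    refine ⟨c * (u (N + k) + v (N + k)) - u (N + k) * v (N + k), ?_⟩
    have : u (N + k) ^ 2 + v (N + k) ^ 2
        = (u (N + k) + v (N + k)) * (u (N + k) + v (N + k)) - 2 * (u (N + k) * v (N + k)) := by ring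
    rw [this]
    nth_rewrite 1 [hc']
    push_cast
    ring
  refine no_int_walk (fun k => u (N + k)) (fun k => v (N + k)) ?_ ?_ ?_
  · intro k
    simp only [← add_assoc]
    have h1 := hd (N + k)
    have h2 := hmono (N + k)
    have h3 := hoddk k
    have h4 := hoddk (k + 1)
    rw [← add_assoc] at h4
    obtain ⟨a, ha⟩ : ∃ a, a = u (N + k + 1) - u (N + k) := ⟨_, rfl⟩
    obtain ⟨b, hb⟩ : ∃ b, b = v (N + k + 1) - v (N + k) := ⟨_, rfl⟩
    rw [← ha, ← hb] at h1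
    have hab : 0 < a + b := by omega
    have hab2 : (a + b) % 2 = 0 := by omega
    have key := steps a b h1 hab hab2
    rcases key with ⟨k1, k2⟩ | ⟨k1, k2⟩ | ⟨k1, k2⟩ | ⟨k1, k2⟩
    · left; omega
    · right; left; omega
    · right; right; left; omega
    · right; right; right; omega
  · simpa using hoddk 0
  · intro k p hp
    have hpp : p.Prime ∧ p ≤ 29 := by
      rcases hp with h | h | h | h | h <;> subst h <;> norm_num
    exact hnd k p hpp.1 hpp.2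

end Vale.Agent.Results.P015.DiagonalMonotone
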