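import Mathlib
import Vale.Agent.Results.P015.Corridor
import Vale.Agent.Results.P015.StraightRegions
import Vale.Agent.Results.P015.DiagonalMonotone
import Vale.Agent.Lib.P015.Grow

/-!
# P015 (Gaussian moat problem): four restrictions on walks to infinity, in one statement

(1) explicit, uniform bound for chains of Gaussian primes in a strip about any real line;
(2) no infinite path of `G_D` in an asymptotically straight region of bounded width;
(3) no infinite path of `G_D` within distance `log₂ log₂ |z| / (8 (⌈D⌉ + 1))` of a real line;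
(4) for `D < √10`: no infinite path that always advances in a diagonal direction.
-/

namespace Vale.Agent.Results.P015.Combined

open GaussianInt

theorem result :
    (∀ (D W A B C : ℝ), A ^ 2 + B ^ 2 = 1 → ∀ (m : ℕ) (z : ℕ → GaussianInt),
      (∀ k ≤ m, Prime (z k)) →
      (∀ k < m, dist (toComplex (z k)) (toComplex (z (k + 1))) ≤ D) →
      (∀ k ≤ m, |A * ((z k).re : ℝ) + B * ((z k).im : ℝ) - C| ≤ W) →
      dist (toComplex (z 0)) (toComplex (z m))
        ≤ 2 ^ 2 ^ ((⌈D⌉₊ + 1) * (2 * ⌈2 * W⌉₊ + 3) + 3)) ∧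
    (∀ (D W : ℝ) (T : Set ℂ),
      (∀ L : ℝ, ∃ R₀ : ℝ, ∀ c : ℂ, R₀ ≤ ‖c‖ → ∃ A B C : ℝ, A ^ 2 + B ^ 2 = 1 ∧
        ∀ w ∈ T, dist w c ≤ L → |A * w.re + B * w.im - C| ≤ W) →
      ¬ ∃ z : ℕ → GaussianInt, Function.Injective z ∧ (∀ n, Prime (z n)) ∧
        (∀ n, dist (toComplex (z n)) (toComplex (z (n + 1))) ≤ D) ∧
        (∀ n, toComplex (z n) ∈ T)) ∧
    (∀ (D A B C : ℝ), A ^ 2 + B ^ 2 = 1 →
      ¬ ∃ z : ℕ → GaussianInt, Function.Injective z ∧ (∀ n, Prime (z n)) ∧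
        (∀ n, dist (toComplex (z n)) (toComplex (z (n + 1))) ≤ D) ∧
        (∀ n, |A * ((z n).re : ℝ) + B * ((z n).im : ℝ) - C| ≤
          Real.logb 2 (Real.logb 2 (max ‖toComplex (z n)‖ 4)) / (8 * ((⌈D⌉₊ : ℝ) + 1)))) ∧
    (∀ e₁ e₂ : ℤ, (e₁ = 1 ∨ e₁ = -1) → (e₂ = 1 ∨ e₂ = -1) →
      ¬ ∃ z : ℕ → GaussianInt, (∀ n, Prime (z n)) ∧
        (∀ n, dist (toComplex (z n)) (toComplex (z (n + 1))) < Real.sqrt 10) ∧
        (∀ n, e₁ * (z n).re + e₂ * (z n).im < e₁ * (z (n + 1)).re + e₂ * (z (n + 1)).im)) :=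
  ⟨fun D W A B C hAB m z h1 h2 h3 =>
      Vale.Agent.Results.P015.Corridor.result D W A B C hAB m z h1 h2 h3,
    fun D W T hT => Vale.Agent.Results.P015.StraightRegions.result D W T hT,
    fun D A B C hAB => Vale.Agent.Lib.P015.Grow.loglog_region D A B C hAB,
    fun e₁ e₂ h1 h2 => Vale.Agent.Results.P015.DiagonalMonotone.result e₁ e₂ h1 h2⟩

end Vale.Agent.Results.P015.Combined
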