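import Mathlib

namespace Vale.Agent.Results.P015.LineStrip


/-- If a rational prime `p` divides the norm of a Gaussian prime `z`, then the norm is at most `p^2`. -/
lemma norm_le_sq_of_prime {z : GaussianInt} (hz : Prime z) {p : ℕ} (hp : p.Prime)
    (hdvd : (p : ℤ) ∣ z.norm) : z.norm ≤ (p : ℤ) ^ 2 := by
  have hz0 : z ≠ 0 := hz.ne_zero
  obtain ⟨n, hn⟩ : ∃ n : ℕ, (n : ℤ) = z.norm := ⟨z.norm.natAbs, Int.natAbs_of_nonneg (GaussianInt.norm_nonneg z)⟩
  have hn0 : n ≠ 0 := by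
    rintro rfl
    have h0 : z.norm = 0 := by simpa using hn.symm
    exact hz0 ((Zsqrtd.norm_eq_zero_iff (by norm_num) z).1 h0)
  have hzn : z ∣ ((n : ℕ) : GaussianInt) := by
    refine ⟨star z, ?_⟩
    rw [← Zsqrtd.norm_eq_mul_conj, ← hn]
    simp
  obtain ⟨q, hq, hzq⟩ : ∃ q : ℕ, q.Prime ∧ z ∣ (q : GaussianInt) := by
    rw [← Nat.prod_primeFactorsList hn0, Nat.cast_list_prod, hz.dvd_prod_iff] at hzn
    obtain ⟨a, ha, hza⟩ := hzn
    obtain ⟨q, hq, rfl⟩ := List.mem_map.1 ha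
    exact ⟨q, Nat.prime_of_mem_primeFactorsList hq, hza⟩
  have hnq : n ∣ q ^ 2 := by
    obtain ⟨w, hw⟩ := hzq
    have h1 : ((q : GaussianInt)).norm = z.norm * w.norm := by rw [hw, Zsqrtd.norm_mul]
    rw [Zsqrtd.norm_natCast, ← hn] at h1
    have : (n : ℤ) ∣ ((q ^ 2 : ℕ) : ℤ) := ⟨w.norm, by push_cast; rw [← h1]; ring⟩
    exact_mod_cast this
  obtain ⟨k, hk, hnk⟩ := (Nat.dvd_prime_pow hq).1 hnq
  have hpn : p ∣ n := by
    rw [← hn] at hdvd
    exact_mod_cast hdvd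
  have hpq : p = q := by
    rw [hnk] at hpn
    exact (Nat.prime_dvd_prime_iff_eq hp hq).1 (hp.dvd_of_dvd_pow hpn)
  rw [← hn, hnk, ← hpq]
  have : p ^ k ≤ p ^ 2 := Nat.pow_le_pow_right hp.pos hk
  exact_mod_cast this


/-- choice of a square root of `-1` adapted to a coprime pair -/
lemma exists_root (p : ℕ) [Fact p.Prime] (hp4 : p ≡ 1 [MOD 4]) (a : ℤ) (b : ℕ)
    (hab : a.natAbs.Coprime b) :
    ∃ r : ZMod p, r ^ 2 = -1 ∧ (b : ZMod p) - r * (a : ZMod p) ≠ 0 := by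
  have hp : p.Prime := Fact.out
  have hsq : IsSquare (-1 : ZMod p) := by
    rw [ZMod.exists_sq_eq_neg_one_iff]
    have : p % 4 = 1 := hp4
    omega
  obtain ⟨s, hs⟩ := hsq
  have hs2 : s ^ 2 = -1 := by rw [sq]; exact hs.symm
  by_cases h1 : (b : ZMod p) - s * (a : ZMod p) = 0
  · refine ⟨-s, by rw [neg_sq]; exact hs2, ?_⟩
    intro h2
    have hp2 : (2 : ZMod p) ≠ 0 := by
      intro h
      have h' : ((2 : ℕ) : ZMod p) = 0 := by exact_mod_cast h
      rw [ZMod.natCast_eq_zero_iff] at h'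
      have hle := Nat.le_of_dvd (by norm_num) h'
      have : p % 4 = 1 := hp4
      have := hp.two_le
      interval_cases p <;> omega
    have hb : (b : ZMod p) = 0 := by
      have : (2 : ZMod p) * b = 0 := by linear_combination h1 + h2
      rcases mul_eq_zero.1 this with h | h
      · exact absurd h hp2
      · exact h
    have hs0 : s ≠ 0 := by
      rintro rfl
      have h01 : (0 : ZMod p) = -1 := by simpa using hs2
      have : (1 : ZMod p) = 0 := by linear_combination h01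
      exact one_ne_zero this
    have ha : (a : ZMod p) = 0 := by
      have : s * (a : ZMod p) = 0 := by linear_combination hb - h1
      rcases mul_eq_zero.1 this with h | h
      · exact absurd h hs0
      · exact h
    rw [ZMod.natCast_eq_zero_iff] at hb
    rw [ZMod.intCast_zmod_eq_zero_iff_dvd] at ha
    have ha' : p ∣ a.natAbs := Int.natCast_dvd.1 ha
    have := Nat.dvd_gcd ha' hb
    rw [hab] at this
    exact hp.one_lt.ne' (Nat.dvd_one.1 this)
  · exact ⟨s, hs2, h1⟩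

lemma window (α β : ℝ) (D W : ℕ) :
    ∃ (L P : ℕ), ∀ x' : ℤ, ∃ x0 : ℤ, x' ≤ x0 ∧ x0 ≤ x' + L ∧
      ∀ x y : ℤ, x0 ≤ x → x ≤ x0 + D → |(y : ℝ) - α * x - β| ≤ W →
        ∃ p : ℕ, p.Prime ∧ p ≤ P ∧ (p : ℤ) ∣ x ^ 2 + y ^ 2 := by
  classical
  let ι := Fin (D + 1) × Fin (2 * W + 3)
  have hinf : {p : ℕ | p.Prime ∧ p ≡ 1 [MOD 4]}.Infinite :=
    Nat.infinite_setOfPred_prime_modEq_one (by norm_num)
  let emb := hinf.natEmbedding
  let e : ι ≃ Fin (Fintype.card ι) := Fintype.equivFin ι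
  let pr : ι → ℕ := fun i => (emb (e i : ℕ)).1
  have hpr : ∀ i, (pr i).Prime := fun i => (emb (e i : ℕ)).2.1
  have hpr4 : ∀ i, pr i ≡ 1 [MOD 4] := fun i => (emb (e i : ℕ)).2.2
  have hinj : Function.Injective pr := by
    intro i j hij
    have h1 : emb (e i : ℕ) = emb (e j : ℕ) := Subtype.ext hij
    have h2 := emb.injective h1
    exact e.injective (Fin.ext h2)
  have : ∀ i, Fact (pr i).Prime := fun i => ⟨hpr i⟩
  obtain ⟨N, hN⟩ : ∃ N : ℕ, N = ∏ i, pr i := ⟨_, rfl⟩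
  have hNpos : 0 < N := by rw [hN]; exact Finset.prod_pos (fun i _ => (hpr i).pos)
  have hdvdN : ∀ i, pr i ∣ N := fun i => by rw [hN]; exact Finset.dvd_prod_of_mem pr (Finset.mem_univ i)
  obtain ⟨q, hq, -⟩ := Real.exists_rat_abs_sub_le_and_den_le α hNpos
  obtain ⟨b, hb⟩ : ∃ b : ℕ, b = q.den := ⟨_, rfl⟩
  obtain ⟨a, ha⟩ : ∃ a : ℤ, a = q.num := ⟨_, rfl⟩
  have hbpos : 0 < b := by rw [hb]; exact q.den_pos
  have hbR : (0 : ℝ) < b := by exact_mod_cast hbpos
  have hcop : a.natAbs.Coprime b := by rw [ha, hb]; exact q.reduced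
  have hδ : |α * b - a| ≤ 1 / ((N : ℝ) + 1) := by
    have hqab : (q : ℝ) = a / b := by
      rw [ha, hb]; exact_mod_cast (Rat.num_div_den q).symm
    rw [hqab, ← hb] at hq
    have h1 : α * b - a = (α - a / b) * b := by field_simp
    rw [h1, abs_mul, abs_of_pos hbR]
    calc |α - a / b| * b ≤ 1 / (((N : ℝ) + 1) * b) * b := by gcongr
      _ = 1 / ((N : ℝ) + 1) := by field_simp
  have hroot : ∀ i, ∃ r : ZMod (pr i), r ^ 2 = -1 ∧ (b : ZMod (pr i)) - r * (a : ZMod (pr i)) ≠ 0 :=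
    fun i => exists_root (pr i) (hpr4 i) a b hcop
  choose r hr1 hr2 using hroot
  refine ⟨N * b, N, fun x' => ?_⟩
  obtain ⟨y', hy'⟩ : ∃ y' : ℤ, y' = ⌊α * x' + β⌋ := ⟨_, rfl⟩
  let c : ℕ → ℤ := fun j => ⌊α * j⌋
  let t : ∀ i : ι, ZMod (pr i) := fun i =>
    -(((x' + ((i.1 : ℕ) : ℤ) : ℤ) : ZMod (pr i))
        - r i * ((y' + c i.1 + ((i.2 : ℕ) : ℤ) - W : ℤ) : ZMod (pr i)))
      / ((b : ZMod (pr i)) - r i * (a : ZMod (pr i)))
  obtain ⟨k, hk⟩ := Nat.chineseRemainderOfFinset (fun i => (t i).val) pr Finset.univ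
    (fun i _ => (hpr i).ne_zero)
    (fun i _ j _ hij => (Nat.coprime_primes (hpr i) (hpr j)).2 (fun h => hij (hinj h)))
  obtain ⟨k0, hk0⟩ : ∃ k0 : ℕ, k0 = k % N := ⟨_, rfl⟩
  have hk0lt : k0 < N := by rw [hk0]; exact Nat.mod_lt _ hNpos
  have hkt : ∀ i, (k0 : ZMod (pr i)) = t i := by
    intro i
    have h1 : k0 ≡ k [MOD pr i] := by
      rw [hk0]; exact (Nat.mod_modEq k N).of_dvd (hdvdN i)
    have h2 := h1.trans (hk i (Finset.mem_univ i))
    rw [← ZMod.natCast_eq_natCast_iff] at h2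
    rw [h2, ZMod.natCast_zmod_val]
  refine ⟨x' + k0 * b, le_add_of_nonneg_right (by positivity), ?_, ?_⟩
  · have : (k0 : ℤ) * b ≤ N * b := by
      have : k0 * b ≤ N * b := Nat.mul_le_mul_right _ hk0lt.le
      exact_mod_cast this
    push_cast
    linarith
  intro x y hx1 hx2 hy
  obtain ⟨j, hj⟩ : ∃ j : ℕ, (j : ℤ) = x - (x' + k0 * b) := ⟨(x - (x' + k0 * b)).toNat, Int.toNat_of_nonneg (by linarith)⟩
  have hjD : j < D + 1 := by
    have : (j : ℤ) < D + 1 := by rw [hj]; linarith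
    exact_mod_cast this
  have hxR : (x : ℝ) = x' + k0 * b + j := by
    have : x = x' + k0 * b + j := by rw [hj]; ring
    exact_mod_cast this
  have e0a : (y' : ℝ) ≤ α * x' + β := by rw [hy']; exact Int.floor_le _
  have e0b : α * x' + β < y' + 1 := by rw [hy']; exact Int.lt_floor_add_one _
  have eja : (c j : ℝ) ≤ α * j := Int.floor_le _
  have ejb : α * j < c j + 1 := Int.lt_floor_add_one _
  have hkδ : |(k0 : ℝ) * (α * b - a)| < 1 := by
    rw [abs_mul, abs_of_nonneg (Nat.cast_nonneg k0)]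
    have hN1 : (0 : ℝ) < (N : ℝ) + 1 := by positivity
    calc (k0 : ℝ) * |α * b - a| ≤ k0 * (1 / ((N : ℝ) + 1)) := by gcongr
      _ < 1 := by
        rw [mul_one_div, div_lt_one hN1]
        have : (k0 : ℝ) < N := by exact_mod_cast hk0lt
        linarith
  rw [abs_lt] at hkδ
  rw [abs_le] at hy
  have hw1 : (-(W : ℝ) - 1) < ((y - (y' + k0 * a) - c j : ℤ) : ℝ) := by
    push_cast
    rw [hxR] at hy
    nlinarith [hy.1, hkδ.1]
  have hw2 : ((y - (y' + k0 * a) - c j : ℤ) : ℝ) < (W : ℝ) + 3 := by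
    push_cast
    rw [hxR] at hy
    nlinarith [hy.2, hkδ.2]
  have hw1' : -(W : ℤ) - 1 < y - (y' + k0 * a) - c j := by exact_mod_cast hw1
  have hw2' : y - (y' + k0 * a) - c j < (W : ℤ) + 3 := by exact_mod_cast hw2
  obtain ⟨w, hw⟩ : ∃ w : ℕ, (w : ℤ) = y - (y' + k0 * a) - c j + W :=
    ⟨(y - (y' + k0 * a) - c j + W).toNat, Int.toNat_of_nonneg (by linarith)⟩
  have hwlt : w < 2 * W + 3 := by
    have : (w : ℤ) < 2 * W + 3 := by rw [hw]; linarith
    exact_mod_cast this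
  let i : ι := (⟨j, hjD⟩, ⟨w, hwlt⟩)
  refine ⟨pr i, hpr i, Nat.le_of_dvd hNpos (hdvdN i), ?_⟩
  rw [← ZMod.intCast_zmod_eq_zero_iff_dvd]
  have hxZ : (x : ZMod (pr i)) = ((x' + (j : ℤ) : ℤ) : ZMod (pr i)) + k0 * b := by
    have : x = (x' + (j : ℤ)) + k0 * b := by rw [hj]; ring
    rw [this]; push_cast; ring
  have hyZ : (y : ZMod (pr i)) = ((y' + c j + (w : ℤ) - W : ℤ) : ZMod (pr i)) + k0 * a := by
    have : y = (y' + c j + (w : ℤ) - W) + k0 * a := by rw [hw]; ring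
    rw [this]; push_cast; ring
  have hkey : (x : ZMod (pr i)) - r i * (y : ZMod (pr i)) = 0 := by
    have h1 := hkt i
    have h2 : (k0 : ZMod (pr i)) * ((b : ZMod (pr i)) - r i * (a : ZMod (pr i)))
        = -(((x' + (j : ℤ) : ℤ) : ZMod (pr i)) - r i * ((y' + c j + (w : ℤ) - W : ℤ) : ZMod (pr i))) := by
      rw [h1]
      exact div_mul_cancel₀ _ (hr2 i)
    rw [hxZ, hyZ]
    linear_combination h2
  push_cast
  have h3 := hr1 i
  linear_combination ((x : ZMod (pr i)) + r i * y) * hkey + (y : ZMod (pr i)) ^ 2 * h3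

theorem core (α β W D : ℝ) (x y : ℕ → ℤ)
    (hinj : Function.Injective (fun n => (x n, y n)))
    (hstep : ∀ n, |(x (n + 1) : ℝ) - x n| ≤ D)
    (hstrip : ∀ n, |(y n : ℝ) - α * x n - β| ≤ W)
    (hprime : ∀ n (p : ℕ), p.Prime → (p : ℤ) ∣ x n ^ 2 + y n ^ 2 →
      x n ^ 2 + y n ^ 2 ≤ (p : ℤ) ^ 2) : False := by
  obtain ⟨D', hD'⟩ : ∃ D' : ℕ, D ≤ D' := ⟨⌈D⌉₊, Nat.le_ceil D⟩
  obtain ⟨W', hW'⟩ : ∃ W' : ℕ, W ≤ W' := ⟨⌈W⌉₊, Nat.le_ceil W⟩
  obtain ⟨L, P, hwin⟩ := window α β D' W'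
  obtain ⟨xp, hxp1, -, hxp⟩ := hwin (max (x 0 + 1) (P + 1))
  obtain ⟨xm, -, hxm1, hxm⟩ := hwin (min (x 0) (-P) - L - D' - 1)
  have hxpa : x 0 + 1 ≤ xp := le_trans (le_max_left _ _) hxp1
  have hxpb : (P : ℤ) + 1 ≤ xp := le_trans (le_max_right _ _) hxp1
  have hxma : xm + D' ≤ x 0 - 1 := by
    have := min_le_left (x 0) (-(P : ℤ)); linarith
  have hxmb : xm + D' ≤ -(P : ℤ) - 1 := by
    have := min_le_right (x 0) (-(P : ℤ)); linarith
  have hstepZ : ∀ n, |x (n + 1) - x n| ≤ D' := by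
    intro n
    have h1 : |(x (n + 1) : ℝ) - x n| ≤ D' := (hstep n).trans hD'
    exact_mod_cast h1
  have hno : ∀ n (x0 : ℤ), (∀ x y : ℤ, x0 ≤ x → x ≤ x0 + D' → |(y : ℝ) - α * x - β| ≤ W' →
        ∃ p : ℕ, p.Prime ∧ p ≤ P ∧ (p : ℤ) ∣ x ^ 2 + y ^ 2) → x0 ≤ x n → x n ≤ x0 + D' →
        (P : ℤ) + 1 ≤ |x n| → False := by
    intro n x0 h h1 h2 h3
    obtain ⟨p, hp, hpP, hdvd⟩ := h (x n) (y n) h1 h2 ((hstrip n).trans hW')
    have h4 := hprime n p hp hdvd
    have h5 : (p : ℤ) ≤ P := by exact_mod_cast hpP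
    have h6 : (p : ℤ) ^ 2 ≤ (P : ℤ) ^ 2 := by
      have : (0 : ℤ) ≤ p := by positivity
      nlinarith
    have h7 : ((P : ℤ) + 1) ^ 2 ≤ x n ^ 2 := by
      rw [← sq_abs (x n)]
      have : (0 : ℤ) ≤ P := by positivity
      nlinarith
    nlinarith [sq_nonneg (y n)]
  have hbd : ∀ n, xm + D' < x n ∧ x n < xp := by
    intro n
    induction n with
    | zero => exact ⟨by linarith, by linarith⟩
    | succ n ih =>
      have hs := abs_le.1 (hstepZ n)
      constructor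
      · by_contra hcon
        rw [not_lt] at hcon
        refine hno (n + 1) xm hxm (by linarith [ih.1, hs.1]) hcon ?_
        rw [abs_of_nonpos (by have : (0 : ℤ) ≤ P := by positivity
                              linarith)]
        linarith
      · by_contra hcon
        rw [not_lt] at hcon
        refine hno (n + 1) xp hxp hcon (by linarith [ih.2, hs.2]) ?_
        rw [abs_of_nonneg (by have : (0 : ℤ) ≤ P := by positivity
                              linarith)]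
        linarith
  -- finiteness
  obtain ⟨Y, hY⟩ : ∃ Y : ℕ, W + |α| * (|(xm : ℝ)| + |(xp : ℝ)|) + |β| ≤ Y := ⟨_, Nat.le_ceil _⟩
  have hfin : (Set.range (fun n => (x n, y n))).Finite := by
    refine Set.Finite.subset ((Set.finite_Icc xm xp).prod (Set.finite_Icc (-(Y : ℤ)) Y)) ?_
    rintro _ ⟨n, rfl⟩
    have h1 := hbd n
    have hD0 : (0 : ℤ) ≤ D' := by positivity
    refine ⟨⟨by linarith, by linarith⟩, ?_⟩
    have hxabs : |(x n : ℝ)| ≤ |(xm : ℝ)| + |(xp : ℝ)| := by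
      have ha : (xm : ℝ) ≤ x n := by exact_mod_cast (by linarith : xm ≤ x n)
      have hb : (x n : ℝ) ≤ xp := by exact_mod_cast h1.2.le
      rw [abs_le]
      constructor
      · have := neg_abs_le (xm : ℝ); have := abs_nonneg (xp : ℝ); linarith
      · have := le_abs_self (xp : ℝ); have := abs_nonneg (xm : ℝ); linarith
    have hyabs : |(y n : ℝ)| ≤ Y := by
      have h2 := hstrip n
      have h3 : (y n : ℝ) = ((y n : ℝ) - α * x n - β) + α * x n + β := by ring
      calc |(y n : ℝ)| = |((y n : ℝ) - α * x n - β) + α * x n + β| := by rw [← h3]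
        _ ≤ |((y n : ℝ) - α * x n - β)| + |α * x n| + |β| := abs_add_three _ _ _
        _ ≤ W + |α| * (|(xm : ℝ)| + |(xp : ℝ)|) + |β| := by
            rw [abs_mul]; gcongr
        _ ≤ Y := hY
    have hyZ : |y n| ≤ (Y : ℤ) := by exact_mod_cast hyabs
    exact abs_le.1 hyZ
  exact (Set.infinite_range_of_injective hinj) hfin

/-- No infinite walk on distinct Gaussian primes with bounded steps stays within bounded
distance of a straight line (arbitrary real coefficients). -/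
theorem result (D W A B C : ℝ) (hAB : A ≠ 0 ∨ B ≠ 0) :
    ¬ ∃ z : ℕ → GaussianInt, Function.Injective z ∧ (∀ n, Prime (z n)) ∧
      (∀ n, dist (GaussianInt.toComplex (z n)) (GaussianInt.toComplex (z (n + 1))) ≤ D) ∧
      (∀ n, |A * ((z n).re : ℝ) + B * ((z n).im : ℝ) - C| ≤ W) := by
  rintro ⟨z, hinj, hprime, hstep, hstrip⟩
  have hre : ∀ n, |((z (n + 1)).re : ℝ) - (z n).re| ≤ D := by
    intro n
    have h1 := Complex.abs_re_le_norm (GaussianInt.toComplex (z n) - GaussianInt.toComplex (z (n + 1)))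
    rw [← dist_eq_norm] at h1
    have h2 := h1.trans (hstep n)
    rw [abs_sub_comm]
    simpa using h2
  have him : ∀ n, |((z (n + 1)).im : ℝ) - (z n).im| ≤ D := by
    intro n
    have h1 := Complex.abs_im_le_norm (GaussianInt.toComplex (z n) - GaussianInt.toComplex (z (n + 1)))
    rw [← dist_eq_norm] at h1
    have h2 := h1.trans (hstep n)
    rw [abs_sub_comm]
    simpa using h2
  have hnorm : ∀ n, (z n).norm = (z n).re ^ 2 + (z n).im ^ 2 := by
    intro n; rw [Zsqrtd.norm_def]; ring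
  rcases hAB with hA | hB
  · refine core (-B / A) (C / A) (W / |A|) D (fun n => (z n).im) (fun n => (z n).re) ?_ him ?_ ?_
    · intro m n hmn
      simp only [Prod.mk.injEq] at hmn
      exact hinj (Zsqrtd.ext hmn.2 hmn.1)
    · intro n
      have h1 : ((z n).re : ℝ) - -B / A * (z n).im - C / A
          = (A * ((z n).re : ℝ) + B * ((z n).im : ℝ) - C) / A := by field_simp; ring
      rw [h1, abs_div]
      gcongr
      exact hstrip n
    · intro n p hp hdvd
      have := norm_le_sq_of_prime (hprime n) hp (by rw [hnorm]; rw [add_comm]; exact hdvd)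
      rw [hnorm] at this
      linarith
  · refine core (-A / B) (C / B) (W / |B|) D (fun n => (z n).re) (fun n => (z n).im) ?_ hre ?_ ?_
    · intro m n hmn
      simp only [Prod.mk.injEq] at hmn
      exact hinj (Zsqrtd.ext hmn.1 hmn.2)
    · intro n
      have h1 : ((z n).im : ℝ) - -A / B * (z n).re - C / B
          = (A * ((z n).re : ℝ) + B * ((z n).im : ℝ) - C) / B := by field_simp; ring
      rw [h1, abs_div]
      gcongr
      exact hstrip n
    · intro n p hp hdvd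
      have := norm_le_sq_of_prime (hprime n) hp (by rw [hnorm]; exact hdvd)
      rw [hnorm] at this
      linarith

end Vale.Agent.Results.P015.LineStrip
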